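import Vale.Agent.Lib.P101.Gamma

/-!
# P101: absence of characters on `F_ω(A)` forces central elements of large variance

Let `A` be a unital C*-algebra, `ω` an ultrafilter on `ℕ` and `φ` a state of `A`.  If the central
sequence algebra `F_ω(A) = A_ω ∩ A'` has no character, then there is `δ > 0` such that for every
finite `S ⊆ A` and every `ε > 0` some contraction `x ∈ A` commutes with `S` up to `ε` and has
`φ`-variance `φ(x* x) - |φ(x)|² ≥ δ`.

So the hypothesis of the Kirchberg–Rørdam question yields, for every state, approximately
central contractions that are far from scalars in the GNS seminorm of that state.  In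
contrapositive form: a state whose variance tends to zero along approximately central
contractions (for instance a state with a spectral gap in finitely many commutators) produces a
character of `F_ω(A)`.
-/

namespace Vale.Agent.Results.P101.CentralVariance

open Vale.Agent.Lib.P101
open scoped ComplexOrder

theorem result (A : Type*) [CStarAlgebra A] [PartialOrder A] [StarOrderedRing A]
    (ω : Ultrafilter ℕ) (hF : IsEmpty (centralSeqAlg A ω →⋆ₐ[ℂ] ℂ))
    (φ : A →ₚ[ℂ] ℂ) (hφ : φ 1 = 1) :
    ∃ δ : ℝ, 0 < δ ∧ ∀ (S : Finset A) (ε : ℝ), 0 < ε →
      ∃ x : A, ‖x‖ ≤ 1 ∧ (∀ a ∈ S, ‖x * a - a * x‖ < ε) ∧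
        δ ≤ (φ (star x * x)).re - ‖φ x‖ ^ 2 :=
  exists_central_variance ω hF φ hφ

end Vale.Agent.Results.P101.CentralVariance
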