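import Vale.Agent.Lib.P101.RankOne
import Vale.Agent.Lib.P101.FinDim
import Vale.Agent.Lib.P101.SpectralGap
import Vale.Agent.Lib.P101.Gamma

/-!
# P101: what the absence of characters on the central sequence algebra forces, in one statement

For a unital C*-algebra `A` (with its order) and an ultrafilter `ω` on `ℕ`, let
`F_ω(A) = A_ω ∩ A'` be the central sequence algebra (`centralSeqAlg A ω`).  The theorem says:
if `F_ω(A)` has no character (the hypothesis of Q1), then

1. no element of `A` acts as a rank-one projection in any unital `*`-representation of `A` on a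
   Hilbert space;
2. `A` has no surjective `*`-homomorphism onto a full matrix algebra `M_n(ℂ)`, `n ≥ 1`;
3. no state `φ` of `A` has a spectral gap in finitely many commutators, i.e. there are no finite
   `S ⊆ A` and real `C` with `φ(x* x) - |φ(x)|² ≤ C ∑_{a ∈ S} ‖x a - a x‖²` for all `x`;
4. for every state `φ` of `A` there is `δ > 0` such that for every finite `S ⊆ A` and `ε > 0`
   some contraction `x` with `‖x a - a x‖ < ε` for `a ∈ S` has variance
   `φ(x* x) - |φ(x)|² ≥ δ`.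

Parts 1–3 are the contrapositives of the theorems of the hand-ins `RankOneRepCharacter`,
`FinDimIrrepCharacter`, `SpectralGapCharacter`; part 4 is `CentralVariance`.
-/

namespace Vale.Agent.Results.P101.NoCharacterConsequences

open Vale.Agent.Lib.P101
open scoped ComplexOrder

theorem result (A : Type*) [CStarAlgebra A] [PartialOrder A] [StarOrderedRing A]
    (ω : Ultrafilter ℕ) (hF : IsEmpty (centralSeqAlg A ω →⋆ₐ[ℂ] ℂ)) :
    (∀ (H : Type*) [NormedAddCommGroup H] [InnerProductSpace ℂ H] [CompleteSpace H]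
        (π : A →⋆ₐ[ℂ] (H →L[ℂ] H)) (a : A) (ξ : H), ‖ξ‖ = 1 →
        ¬ ∀ η : H, π a η = inner ℂ ξ η • ξ) ∧
    (∀ n : ℕ, 0 < n → ∀ π : A →⋆ₐ[ℂ] Matrix (Fin n) (Fin n) ℂ, ¬ Function.Surjective π) ∧
    (∀ φ : A →ₚ[ℂ] ℂ, φ 1 = 1 → ∀ (S : Finset A) (C : ℝ),
        ¬ ∀ x : A, (φ (star x * x)).re - ‖φ x‖ ^ 2 ≤ C * ∑ a ∈ S, ‖x * a - a * x‖ ^ 2) ∧
    (∀ φ : A →ₚ[ℂ] ℂ, φ 1 = 1 →
        ∃ δ : ℝ, 0 < δ ∧ ∀ (S : Finset A) (ε : ℝ), 0 < ε →
          ∃ x : A, ‖x‖ ≤ 1 ∧ (∀ a ∈ S, ‖x * a - a * x‖ < ε) ∧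
            δ ≤ (φ (star x * x)).re - ‖φ x‖ ^ 2) :=
  ⟨fun _ _ _ _ π a ξ hξ ha => hF.false (rankOneCharacter ω π a ξ hξ ha),
    fun _ hn π hπ => hF.false (finDimCharacter π hπ ω ⟨0, hn⟩),
    fun φ hφ S C gap => hF.false (gapCharacter ω φ hφ S C gap),
    fun φ hφ => exists_central_variance ω hF φ hφ⟩

end Vale.Agent.Results.P101.NoCharacterConsequences
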