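import Vale.Agent.Lib.P101.RankOne

/-!
# P101: a rank-one projection in a representation gives a character of `F_ω(A)`

Let `A` be a unital C*-algebra with a unital star representation `π` on a Hilbert space `H`
such that some element `a ∈ A` acts as the rank-one projection onto a unit vector `ξ`, that is
`π(a) η = ⟨ξ, η⟩ ξ` for all `η`.  Then for every ultrafilter `ω` on `ℕ` the central sequence
algebra `F_ω(A)` has a character, namely the `ω`-limit of the vector state `x ↦ ⟨ξ, π(x) ξ⟩`.
-/

namespace Vale.Agent.Results.P101.RankOneRepCharacter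

open Vale.Agent.Lib.P101

theorem result (A : Type*) [CStarAlgebra A] (ω : Ultrafilter ℕ)
    (H : Type*) [NormedAddCommGroup H] [InnerProductSpace ℂ H] [CompleteSpace H]
    (π : A →⋆ₐ[ℂ] (H →L[ℂ] H)) (a : A) (ξ : H) (hξ : ‖ξ‖ = 1)
    (ha : ∀ η : H, π a η = inner ℂ ξ η • ξ) :
    Nonempty (centralSeqAlg A ω →⋆ₐ[ℂ] ℂ) :=
  ⟨rankOneCharacter ω π a ξ hξ ha⟩

end Vale.Agent.Results.P101.RankOneRepCharacter
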