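import Vale.Agent.Lib.P101.SpectralGap

/-!
# P101: a state with a spectral gap in commutators gives a character of `F_ω(A)`

Let `A` be a unital C*-algebra and `φ` a state of `A`.  Suppose there are finitely many elements
`a ∈ S` of `A` and a constant `C` with

  `φ(x* x) - |φ(x)|² ≤ C · ∑_{a ∈ S} ‖x a - a x‖²`  for all `x ∈ A`

(the variance of `x` in the state `φ` is controlled by the commutators of `x` with `S`).  Then
for every ultrafilter `ω` on `ℕ` the central sequence algebra `F_ω(A)` has a character, namely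
the `ω`-limit of `φ`.  With `S = ∅` the hypothesis says that `φ` is a character of `A`.
-/

namespace Vale.Agent.Results.P101.SpectralGapCharacter

open Vale.Agent.Lib.P101
open scoped ComplexOrder

theorem result (A : Type*) [CStarAlgebra A] [PartialOrder A] [StarOrderedRing A]
    (ω : Ultrafilter ℕ) (φ : A →ₚ[ℂ] ℂ) (hφ : φ 1 = 1) (S : Finset A) (C : ℝ)
    (gap : ∀ x : A, (φ (star x * x)).re - ‖φ x‖ ^ 2 ≤ C * ∑ a ∈ S, ‖x * a - a * x‖ ^ 2) :
    Nonempty (centralSeqAlg A ω →⋆ₐ[ℂ] ℂ) :=
  ⟨gapCharacter ω φ hφ S C gap⟩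

end Vale.Agent.Results.P101.SpectralGapCharacter
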